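import Mathlib
import Vale.Agent.P142.Sharp.Check
import Vale.Agent.P142.Sharp.Data.Base
import Vale.Agent.P142.Sharp.Data.Vecs
import Vale.Agent.P142.Sharp.Data.Gram
import Vale.Agent.P142.Sharp.Data.Index
import Vale.Agent.P142.Sharp.Data.Area
import Vale.Agent.P142.Sharp.Data.Deriv
import Vale.Agent.P142.Sharp.Data.Mat
import Vale.Agent.P142.Sharp.Data.Resid

/-!
The assembled certificate.
-/

namespace Vale.Agent.P142.Sharp.Data

open CData in
/-- The certificate. -/
noncomputable def cdata : CData where
  e := e0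
  mons := mons
  lam := lam
  rows := List.zipWith (fun k y => (k, y.map fun z : ℤ => (z : ℚ) / (dY : ℚ))) kinds yi
  items := items
  vecs := vecs
  w := w
  dmult := List.zipWith (fun t z => (t, z.map fun x : ℤ => (x : ℚ) / (D : ℚ))) srcs zi

/-- The tables. -/
noncomputable def aux : Aux where
  D := D
  dY := dY
  Yi := yi
  G := gram
  ix := ix
  ixT := ixT
  Pn := Pn
  c00 := c00
  Bi := bi
  Gi := gi
  Tr := tr
  Li := li
  Zi := zi
  M := mat
  cs := 1
  cvecs := cvecs

end Vale.Agent.P142.Sharp.Data
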